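import Vale.Agent.P114.MathlibUsed

open scoped Classical ENNReal

open MeasureTheory

noncomputable section

namespace Vale.Agent.P114

variable {Λ : Type*}

/-- The similarity `x ↦ r i * x + t i`. -/
def simMap (r t : Λ → ℝ) (i : Λ) : ℝ → ℝ := fun x => r i * x + t i

/-- The composed map of a word: `φ_w = φ_{i₁} ∘ ⋯ ∘ φ_{iₙ}` for `w = [i₁, …, iₙ]`. -/
def wordMap (r t : Λ → ℝ) : List Λ → ℝ → ℝ
  | [] => id
  | i :: w => simMap r t i ∘ wordMap r t w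

/-- The probability `ℙ(Gₙ = g)`: the total weight of the words `w ∈ Λⁿ` with `φ_w = g`. -/
def stepProb [Fintype Λ] (r t p : Λ → ℝ) (n : ℕ) (g : ℝ → ℝ) : ℝ :=
  ∑ w : Fin n → Λ, if wordMap r t (List.ofFn w) = g then ∏ k, p (w k) else 0

/-- Shannon entropy (base 2) of `Gₙ`. -/
def stepEntropy [Fintype Λ] (r t p : Λ → ℝ) (n : ℕ) : ℝ :=
  ∑ g ∈ Finset.univ.image (fun w : Fin n → Λ => wordMap r t (List.ofFn w)),
    -(stepProb r t p n g * Real.logb 2 (stepProb r t p n g))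

/-- Random-walk entropy rate `h_RW = inf_{n ≥ 1} H(Gₙ)/n`. -/
def hRW [Fintype Λ] (r t p : Λ → ℝ) : ℝ := ⨅ n : ℕ, stepEntropy r t p (n + 1) / (n + 1)

/-- Lyapunov exponent `χ = -∑ pᵢ log₂ |rᵢ|`. -/
def lyap [Fintype Λ] (r p : Λ → ℝ) : ℝ := -∑ i, p i * Real.logb 2 |r i|

/-- Lower Hausdorff dimension of a measure on the line. -/
def lowerDimH (μ : Measure ℝ) : ℝ≥0∞ :=
  ⨅ (E : Set ℝ) (_ : MeasurableSet E) (_ : 0 < μ E), dimH E

/-- `μ` is the self-similar measure of `(r, t, p)`: a Borel probability measure with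
`μ = ∑ pᵢ (φᵢ)_* μ`. -/
structure IsSelfSimilar [Fintype Λ] (r t p : Λ → ℝ) (μ : Measure ℝ) : Prop where
  prob : IsProbabilityMeasure μ
  eq : μ = ∑ i, ENNReal.ofReal (p i) • μ.map (simMap r t i)

end Vale.Agent.P114
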