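import Mathlib.Algebra.AffineMonoid.Basic
import Mathlib.Algebra.Order.Field.GeomSum
import Mathlib.Algebra.Order.Quantale
import Mathlib.Algebra.Ring.IsFormallyReal
import Mathlib.Analysis.Complex.ExponentialBounds
import Mathlib.Analysis.Complex.Poisson
import Mathlib.Analysis.PSeries
import Mathlib.Analysis.Polynomial.MahlerMeasure
import Mathlib.Analysis.SpecialFunctions.Log.Base
import Mathlib.Analysis.Subadditive
import Mathlib.Combinatorics.SetFamily.LYM
import Mathlib.Computability.Reduce
import Mathlib.Data.Int.Star
import Mathlib.LinearAlgebra.Matrix.AbsoluteValue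
import Mathlib.LinearAlgebra.Matrix.Swap
import Mathlib.MeasureTheory.Function.Floor
import Mathlib.MeasureTheory.Order.Group.Lattice
import Mathlib.NumberTheory.DiophantineApproximation.Basic
import Mathlib.Order.CompletePartialOrder
import Mathlib.RingTheory.Etale.Weakly
import Mathlib.RingTheory.Flat.TorsionFree
import Mathlib.RingTheory.Henselian
import Mathlib.RingTheory.PicardGroup
import Mathlib.RingTheory.Polynomial.Resultant.Basic
import Mathlib.RingTheory.PowerSeries.NoZeroDivisors
import Mathlib.RingTheory.RegularLocalRing.Defs
import Mathlib.RingTheory.SimpleRing.Principal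
import Mathlib.RingTheory.TotallySplit
import Mathlib.Tactic
import Mathlib.Topology.Algebra.ProperAction.Basic
import Mathlib.Topology.MetricSpace.HausdorffDimension

/-! The part of Mathlib that the development of this folder uses. -/
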